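import Mathlib.AlgebraicTopology.SingularHomology.Basic
import Mathlib.CategoryTheory.Functor.OfSequence
import Mathlib.Topology.Category.TopCat.Limits.Basic
import Mathlib.Topology.CompactOpen
import Mathlib.Topology.Compactification.OnePoint.Basic
import Mathlib.Topology.Connected.PathConnected
import Mathlib.Algebra.Category.ModuleCat.Colimits
import Mathlib.Algebra.Category.ModuleCat.Abelian
import Mathlib.Analysis.InnerProductSpace.PiL2
import Vale.Agent.P263.T0.Defs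

/-!
# P263: the space `Q₀S⁰` and the mod 2 Hurewicz map

* `Sph n` : the sphere `Sⁿ = ℝⁿ ∪ {∞}`, with base point `pt n = ∞`.
* `Om n` : the space `Ωⁿ Sⁿ` of based maps `Sⁿ → Sⁿ`, with the compact-open topology.
* `sus : Om n → Om (n + 1)` : `f ↦ f ∧ id`.
* `QS0` : the colimit of the spaces `Om n`; `Q0S0` : the path component of the constant map.
* `H j` : singular homology with coefficients in `𝔽₂`.
* `hur g` : the image `g_*[Sᵈ] ∈ H_d(Q₀S⁰; 𝔽₂)` of the fundamental class under a based map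
  `g : Sᵈ → Q₀S⁰`.

The proofs of continuity are taken from `T0.Defs`.
-/

open CategoryTheory Limits OnePoint Topology

namespace Vale.Agent.P263.ST

/-! ### Spheres -/

/-- The sphere `Sⁿ = ℝⁿ ∪ {∞}`. -/
def Sph (n : ℕ) : TopCat.{0} := TopCat.of (OnePoint (Fin n → ℝ))

/-- The point of `Sⁿ` with coordinates `v`. -/
def at' {n : ℕ} (v : Fin n → ℝ) : Sph n := (v : OnePoint (Fin n → ℝ))

/-- The base point `∞` of `Sⁿ`. -/
def pt (n : ℕ) : Sph n := (∞ : OnePoint (Fin n → ℝ))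

/-! ### The spaces `Ωⁿ Sⁿ` -/

/-- `Ωⁿ Sⁿ`: the space of based continuous maps `Sⁿ → Sⁿ`, with the compact-open topology. -/
def Om (n : ℕ) : TopCat.{0} := TopCat.of {f : C(Sph n, Sph n) // f (pt n) = pt n}

/-- The continuous map `Sⁿ → Sⁿ` given by an element of `Ωⁿ Sⁿ`. -/
def toMap {n : ℕ} (f : Om n) : C(Sph n, Sph n) := f.1

/-- The element of `Ωⁿ Sⁿ` given by a based map. -/
def ofMap {n : ℕ} (f : C(Sph n, Sph n)) (h : f (pt n) = pt n) : Om n := ⟨f, h⟩

/-- The constant map. -/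
def cst (n : ℕ) : Om n := ofMap (ContinuousMap.const _ (pt n)) rfl

/-- The underlying function of `f ∧ id : Sⁿ⁺¹ → Sⁿ⁺¹`: it maps `(v, t)` to `(f v, t)` if
`f v ≠ ∞`, and all other points to `∞`. -/
def susFun {n : ℕ} (f : C(Sph n, Sph n)) (z : Sph (n + 1)) : Sph (n + 1) :=
  OnePoint.elim z (pt (n + 1)) fun v : Fin (n + 1) → ℝ =>
    OnePoint.elim (f (at' (Fin.init v))) (pt (n + 1)) fun w : Fin n → ℝ =>
      at' (Fin.snoc w (v (Fin.last n)))

theorem susFun_continuous {n : ℕ} (f : Om n) : Continuous (susFun (toMap f)) :=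
  T0.continuous_stabFun (r := n) f.1 f.1.continuous f.2

/-- `f ∧ id`, as a continuous map. -/
def susMap {n : ℕ} (f : Om n) : C(Sph (n + 1), Sph (n + 1)) := 
  ⟨susFun (toMap f), susFun_continuous f⟩

theorem susMap_pt {n : ℕ} (f : Om n) : susMap f (pt (n + 1)) = pt (n + 1) := rfl

/-- `f ∧ id`, as an element of `Ωⁿ⁺¹ Sⁿ⁺¹`. -/
def sus {n : ℕ} (f : Om n) : Om (n + 1) := ofMap (susMap f) (susMap_pt f)

theorem sus_continuous (n : ℕ) : Continuous (sus (n := n)) := (T0.stab n).continuous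

/-- The continuous map `Ωⁿ Sⁿ → Ωⁿ⁺¹ Sⁿ⁺¹`, `f ↦ f ∧ id`. -/
def susHom (n : ℕ) : Om n ⟶ Om (n + 1) :=
  TopCat.ofHom (X := Om n) (Y := Om (n + 1)) ⟨sus, sus_continuous n⟩

/-! ### The space `Q₀S⁰` -/

/-- The sequence `Ω⁰S⁰ → Ω¹S¹ → Ω²S² → ⋯`. -/
def seq : ℕ ⥤ TopCat.{0} := Functor.ofSequence susHom

/-- `QS⁰ = colim Ωⁿ Sⁿ`. -/
noncomputable def QS0 : TopCat.{0} := colimit seq

/-- The map `Ωⁿ Sⁿ → QS⁰`. -/
noncomputable def toQ (n : ℕ) : Om n ⟶ QS0 := colimit.ι seq n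

/-- The base point of `QS⁰`: the class of the constant map. -/
noncomputable def base : QS0 := toQ 0 (cst 0)

/-- `Q₀S⁰`: the path component of the base point. -/
noncomputable def Q0S0 : TopCat.{0} := TopCat.of (pathComponent base)

/-- The inclusion `Q₀S⁰ → QS⁰`. -/
noncomputable def incl (x : Q0S0) : QS0 := x.1

/-- The base point of `Q₀S⁰`. -/
noncomputable def base0 : Q0S0 := ⟨base, mem_pathComponent_self base⟩

/-! ### The Hurewicz map -/

/-- Singular homology with coefficients in `𝔽₂`. -/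
noncomputable def H (j : ℕ) : TopCat.{0} ⥤ ModuleCat.{0} (ZMod 2) :=
  (AlgebraicTopology.singularHomologyFunctor (ModuleCat.{0} (ZMod 2)) j).obj
    (ModuleCat.of (ZMod 2) (ZMod 2))

/-- Based maps `Sᵈ → Q₀S⁰`. -/
def BMap (d : ℕ) : Type := {g : Sph d ⟶ Q0S0 // g (pt d) = base0}

/-- The underlying map. -/
def BMap.hom {d : ℕ} (g : BMap d) : Sph d ⟶ Q0S0 := g.1

/-- The mod 2 fundamental class: the non-zero element of `H_d(Sᵈ; 𝔽₂)`, `d > 0`. -/
noncomputable def fund (d : ℕ) : (H d).obj (Sph d) := Classical.epsilon fun x => x ≠ 0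

/-- The mod 2 Hurewicz map `g ↦ g_*[Sᵈ]`. -/
noncomputable def hur {d : ℕ} (g : BMap d) : (H d).obj Q0S0 := (H d).map g.hom (fund d)

/-- A based map `Sᵈ → Q₀S⁰`, `d > 0`, whose Hurewicz image is not zero exists only for
`d = 2ˢ - 1` and for `d = 2ˢ⁺¹ - 2`, `s > 0`. -/
def HurDims : Prop :=
  ∀ (d : ℕ) (g : BMap d), 0 < d → hur g ≠ 0 →
    (∃ s : ℕ, d + 1 = 2 ^ s) ∨ ∃ s : ℕ, 0 < s ∧ d + 2 = 2 ^ (s + 1)

/-- The image of the Hurewicz map in positive degrees has at most one non-zero element. -/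
def HurUnique : Prop :=
  ∀ (d : ℕ) (g g' : BMap d), 0 < d → hur g ≠ 0 → hur g' ≠ 0 → hur g = hur g'

end Vale.Agent.P263.ST
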