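import Mathlib.Topology.Homotopy.Basic
import Vale.Agent.P263.ST.Hur

/-!
# P263: the statement of Curtis's conjecture

A based map `g : Sᵈ → Q₀S⁰` is represented by based maps `F : S^{d+n} → Sⁿ`.

* `AF2 g`, `AF3 g` : a representative of `g` is homotopic to a composite of two (three) based maps
  which are zero in reduced mod 2 homology. (The mod 2 Adams filtration is at least 2 (3).)
* `HopfOne g` : Hopf invariant one: `d = 1`, `3` or `7`, and `AF2 g` is false. (These are the odd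
  multiples of `η`, `ν`, `σ`.)
* `KervOne g` : Kervaire invariant one, in Browder's form: `d = 2ˢ⁺¹ - 2`, `s > 0`, and `AF3 g` is
  false.
* `V d` : the span of the classes `h_d(g)`, where `g` has Hopf invariant one or Kervaire invariant
  one.
* `Curtis` : for all `d > 0` the set of the classes `h_d(g)`, `g` a based map `Sᵈ → Q₀S⁰`, is `V d`.
-/

open CategoryTheory OnePoint Topology

namespace Vale.Agent.P263.ST

/-- `F : S^{d+n} → Sⁿ` represents `g : Sᵈ → Q₀S⁰`: it is the adjoint of a based map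
`A : Sᵈ → Ωⁿ Sⁿ` whose composite with `Ωⁿ Sⁿ → QS⁰` is `g`. -/
def Rep {d n : ℕ} (g : BMap d) (F : Sph (d + n) ⟶ Sph n) : Prop :=
  F (pt (d + n)) = pt n ∧ ∃ A : Sph d ⟶ Om n, A (pt d) = cst n ∧
    (∀ x : Sph d, toQ n (A x) = incl (g.hom x)) ∧
      ∀ (v : Fin d → ℝ) (w : Fin n → ℝ), F (at' (Fin.append v w)) = toMap (A (at' v)) (at' w)

/-- The constant map `X → Y` with value `y`. -/
def const' (X : TopCat.{0}) {Y : TopCat.{0}} (y : Y) : X ⟶ Y := TopCat.ofHom (ContinuousMap.const X y)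

/-- `f` is a based map `(X, x) → (Y, y)` which is zero in reduced mod 2 homology: `f` and the
constant map induce the same map in singular homology. -/
def ZeroH {X Y : TopCat.{0}} (x : X) (y : Y) (f : X ⟶ Y) : Prop :=
  f x = y ∧ ∀ j : ℕ, (H j).map f = (H j).map (const' X y)

/-- `f` and `g` are homotopic relative to the base point `x`. -/
def Htpc {X Y : TopCat.{0}} (x : X) (f g : X ⟶ Y) : Prop := f.hom.HomotopicRel g.hom {x}

/-- **Adams filtration at least two**: a representative `S^{d+n} → Sⁿ` of `g` is homotopic to a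
composite `S^{d+n} → W → Sⁿ` of two based maps which are zero in reduced mod 2 homology. -/
def AF2 {d : ℕ} (g : BMap d) : Prop :=
  ∃ (n : ℕ) (F : Sph (d + n) ⟶ Sph n) (W : TopCat.{0}) (w : W) (f₁ : Sph (d + n) ⟶ W)
    (f₂ : W ⟶ Sph n), Rep g F ∧ ZeroH (pt (d + n)) w f₁ ∧ ZeroH w (pt n) f₂ ∧
      Htpc (pt (d + n)) F (f₁ ≫ f₂)

/-- **Adams filtration at least three**: a representative `S^{d+n} → Sⁿ` of `g` is homotopic to a
composite `S^{d+n} → W → W' → Sⁿ` of three based maps which are zero in reduced mod 2 homology. -/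
def AF3 {d : ℕ} (g : BMap d) : Prop :=
  ∃ (n : ℕ) (F : Sph (d + n) ⟶ Sph n) (W W' : TopCat.{0}) (w : W) (w' : W')
    (f₁ : Sph (d + n) ⟶ W) (f₂ : W ⟶ W') (f₃ : W' ⟶ Sph n), Rep g F ∧ ZeroH (pt (d + n)) w f₁ ∧
      ZeroH w w' f₂ ∧ ZeroH w' (pt n) f₃ ∧ Htpc (pt (d + n)) F (f₁ ≫ f₂ ≫ f₃)

/-- **Hopf invariant one** -/
def HopfOne {d : ℕ} (g : BMap d) : Prop := (d = 1 ∨ d = 3 ∨ d = 7) ∧ ¬ AF2 g

/-- **Kervaire invariant one** -/
def KervOne {d : ℕ} (g : BMap d) : Prop := (∃ s : ℕ, 0 < s ∧ d + 2 = 2 ^ (s + 1)) ∧ ¬ AF3 g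

/-- `V_d`: the span of the classes `h_d(g)`, where `g` has Hopf invariant one or Kervaire invariant
one. -/
noncomputable def V (d : ℕ) : Submodule (ZMod 2) ((H d).obj Q0S0) :=
  Submodule.span (ZMod 2) (hur '' {g : BMap d | HopfOne g ∨ KervOne g})

/-- **Curtis's conjecture**: `h_d(π_d(Q₀S⁰)) = V_d` for all `d > 0`. -/
def Curtis : Prop := ∀ d : ℕ, 0 < d → Set.range (hur (d := d)) = V d

/-- If `h_d(g) ≠ 0` then `g` has Hopf invariant one or Kervaire invariant one. -/
def CurtisElt : Prop := ∀ (d : ℕ) (g : BMap d), 0 < d → hur g ≠ 0 → HopfOne g ∨ KervOne g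

end Vale.Agent.P263.ST
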