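import Mathlib.Analysis.Quaternion
import Mathlib.Analysis.Complex.Basic
import Vale.Agent.P263.ST.Curtis

/-!
# P263: the Hopf maps `S³ → S²`, `S⁷ → S⁴`, `S¹⁵ → S⁸` and their stable classes
-/

open CategoryTheory OnePoint Topology
open scoped Quaternion

namespace Vale.Agent.P263.ST

/-- The product of the octonions `ℍ × ℍ`: `(a, b) (c, d) = (a c - d̄ b, d a + b c̄)`. -/
noncomputable def octMul (x y : ℍ[ℝ] × ℍ[ℝ]) : ℍ[ℝ] × ℍ[ℝ] :=
  (x.1 * y.1 - star y.2 * x.2, y.2 * x.1 + x.2 * star y.1)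

/-- The conjugation of the octonions: `(a, b) ↦ (ā, -b)`. -/
noncomputable def octConj (x : ℍ[ℝ] × ℍ[ℝ]) : ℍ[ℝ] × ℍ[ℝ] := (star x.1, - x.2)

/-- `{(a, b) ∈ K × K : q a + q b = 1}`; for `q a = |a|²` this is the unit sphere of `K × K`. -/
def Sph2 {K : Type} [TopologicalSpace K] (q : K → ℝ) : TopCat.{0} :=
  TopCat.of {z : K × K // q z.1 + q z.2 = 1}

/-- The Hopf map from the unit sphere of `K × K` to `K ∪ {∞}`: `(a, b) ↦ a b⁻¹ = a b̄ / |b|²` for
`b ≠ 0`, and `(a, 0) ↦ ∞`. Here `q a = |a|²` and `m a b = a b̄`. -/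
noncomputable def hopf {K : Type} [TopologicalSpace K] [AddCommGroup K] [Module ℝ K] (q : K → ℝ)
    (m : K → K → K) (z : Sph2 q) : OnePoint K :=
  open Classical in if z.1.2 = 0 then ∞ else (((q z.1.2)⁻¹ • m z.1.1 z.1.2 : K) : OnePoint K)

/-- `F : S^{2d+1} → S^{d+1}` is the Hopf map of `K`, for a homeomorphism of `S^{2d+1}` with the unit
sphere of `K × K` and a linear isomorphism of `K` with `ℝ^{d+1}`. -/
def IsHopfMap {K : Type} [TopologicalSpace K] [AddCommGroup K] [Module ℝ K] (q : K → ℝ)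
    (m : K → K → K) {d : ℕ} (F : Sph (d + (d + 1)) ⟶ Sph (d + 1)) : Prop :=
  ∃ (e : Sph (d + (d + 1)) ≃ₜ Sph2 q) (L : K ≃L[ℝ] (Fin (d + 1) → ℝ)),
    ∀ z, F z = (hopf q m (e z)).map L

/-- `g` is, up to the sign, the stable class `η` (`d = 1`), `ν` (`d = 3`) or `σ` (`d = 7`) of the Hopf
map of the complex numbers, the quaternions or the octonions. -/
def IsHopf {d : ℕ} (g : BMap d) : Prop :=
  ∃ F : Sph (d + (d + 1)) ⟶ Sph (d + 1), Rep g F ∧
    (IsHopfMap (fun a : ℂ => ‖a‖ ^ 2) (fun a b => a * star b) F ∨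
      IsHopfMap (fun a : ℍ[ℝ] => ‖a‖ ^ 2) (fun a b => a * star b) F ∨
      IsHopfMap (fun a : ℍ[ℝ] × ℍ[ℝ] => ‖a.1‖ ^ 2 + ‖a.2‖ ^ 2) (fun a b => octMul a (octConj b)) F)

/-- `V_d`: the span of the classes `h_d(g)`, where `g` is one of `η`, `ν`, `σ` or has Kervaire
invariant one. -/
noncomputable def VLit (d : ℕ) : Submodule (ZMod 2) ((H d).obj Q0S0) :=
  Submodule.span (ZMod 2) (hur '' {g : BMap d | IsHopf g ∨ KervOne g})

/-- **Curtis's conjecture**: `h_d(π_d(Q₀S⁰)) = V_d` for all `d > 0`. -/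
def CurtisLit : Prop := ∀ d : ℕ, 0 < d → Set.range (hur (d := d)) = VLit d

end Vale.Agent.P263.ST
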