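import Vale.Agent.P263.ST.Bridge
import Vale.Agent.P263.K.Stmt

/-!
# P263: the definitions of the final statement are not empty

* `exists_rep` : every based map `g : Sᵈ → Q₀S⁰` has representatives `S^{d+n} → Sⁿ`, with `n` as
  large as we want.
* `Rep.eq_adjS` : the representatives of `g` are the adjoints of the maps `Sᵈ → Ωⁿ Sⁿ` over `g`.
* `rep_const`, `af2_const`, `af3_const` : the constant map has the constant representatives and has
  Adams filtration at least two and at least three.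
-/

open CategoryTheory OnePoint Topology

namespace Vale.Agent.P263.ST

/-- A representative given by a map `A : Sᵈ → Ωⁿ Sⁿ`. -/
theorem rep_adjS {d n : ℕ} {g : BMap d} {A : C(T0.Sph d, T0.Om n)} (h : K.Rep g n A) :
    Rep g (TopCat.ofHom (TJ.adjS A h.base) : Sph (d + n) ⟶ Sph n) :=
  ⟨TJ.adjS_infty A h.base, TopCat.ofHom A, h.base, h.eq, fun v w =>
    TJ.adjS_join2 A h.base (v : OnePoint (Fin d → ℝ)) (w : OnePoint (Fin n → ℝ))⟩

/-- Every `g` has representatives `S^{d+n} → Sⁿ`, with `n` as large as we want. -/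
theorem exists_rep {d : ℕ} (hd : 0 < d) (g : BMap d) (N : ℕ) :
    ∃ n, N ≤ n ∧ ∃ F : Sph (d + n) ⟶ Sph n, Rep g F := by
  obtain ⟨n, hn, A, hA⟩ := K.exists_rep hd g N
  exact ⟨n, hn, _, rep_adjS hA⟩

/-- The representatives of `g` are the adjoints of the maps `Sᵈ → Ωⁿ Sⁿ` over `g`. -/
theorem Rep.exists_adjS {d n : ℕ} {g : BMap d} {F : Sph (d + n) ⟶ Sph n} (h : Rep g F) :
    ∃ (A : C(T0.Sph d, T0.Om n)) (hA : K.Rep g n A), F.hom = TJ.adjS A hA.base := by
  obtain ⟨h1, A, hA, hAg, hF⟩ := h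
  refine ⟨A.hom, ⟨hA, hAg⟩, ?_⟩
  apply ContinuousMap.ext
  intro z
  induction z using OnePoint.rec with
  | infty => exact h1.trans (TJ.adjS_infty A.hom hA).symm
  | coe z =>
    have e : z = Fin.append (fun i => z (Fin.castAdd n i)) (fun i => z (Fin.natAdd d i)) :=
      (Fin.append_castAdd_natAdd (f := z)).symm
    rw [e]
    exact (hF _ _).trans (TJ.adjS_join2 A.hom hA _ _).symm

/-- The constant based map `Sᵈ → Q₀S⁰`. -/
noncomputable def cstB (d : ℕ) : BMap d := ⟨const' (Sph d) base0, rfl⟩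

theorem rep_const (d n : ℕ) : Rep (cstB d) (const' (Sph (d + n)) (pt n)) :=
  ⟨rfl, const' (Sph d) (cst n), rfl, fun _ => T0.toQ_const n, fun _ _ => rfl⟩

theorem zeroH_const {X Y : TopCat.{0}} (x : X) (y : Y) : ZeroH x y (const' X y) :=
  ⟨rfl, fun _ => rfl⟩

theorem af2_const (d : ℕ) : AF2 (cstB d) :=
  ⟨0, _, Sph 0, pt 0, const' _ (pt 0), const' _ (pt 0), rep_const d 0, zeroH_const _ _,
    zeroH_const _ _, ContinuousMap.HomotopicRel.refl _⟩

theorem af3_const (d : ℕ) : AF3 (cstB d) :=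
  ⟨0, _, Sph 0, Sph 0, pt 0, pt 0, const' _ (pt 0), const' _ (pt 0), const' _ (pt 0),
    rep_const d 0, zeroH_const _ _, zeroH_const _ _, zeroH_const _ _,
    ContinuousMap.HomotopicRel.refl _⟩

end Vale.Agent.P263.ST
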