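import Vale.Agent.P263.ST.HopfAlg
import Vale.Agent.P263.ST.RepEx
import Vale.Agent.P263.TOP.HopfHur

/-!
# P263: the stable classes `η`, `ν`, `σ` of the Hopf maps

* `IsHopf.hopfOne` : a stable class of a Hopf map has Hopf invariant one and lives in the stem
  `1`, `3` or `7`.
* `exists_isHopf` : they exist in the stems `1`, `3`, `7`.
* `IsHopf.hur_ne` : their Hurewicz images are not zero.
* `curtisLit_of` : Curtis's conjecture with the literal Hopf maps, from the statement for single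
  elements and the uniqueness of the non-zero Hurewicz class.
-/

open CategoryTheory OnePoint Topology
open scoped Quaternion

namespace Vale.Agent.P263.ST

open Vale.Agent.P263.K

section

variable {K : Type} [TopologicalSpace K] [AddCommGroup K] [Module ℝ K] {q : K → ℝ}
  {m : K → K → K} {e : ℕ}

theorem dim_eq (H : HK K q m e) {d : ℕ} (L : K ≃L[ℝ] (Fin (d + 1) → ℝ)) : d = e := by
  have h1 := L.toLinearEquiv.finrank_eq
  have h2 := H.φ.toLinearEquiv.finrank_eq
  rw [Module.finrank_fin_fun] at h1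
  rw [finrank_euclideanSpace, Fintype.card_fin] at h2
  omega

/-- the literal Hopf maps have Hopf invariant one -/
theorem IsHopfMap.hopfOne [ContinuousSMul ℝ K] (H : HK K q m e) (he : Odd e) {d : ℕ}
    {F : Sph (d + (d + 1)) ⟶ Sph (d + 1)} (h : IsHopfMap q m F) :
    d = e ∧ TJ.HopfOne (m := d + (d + 1)) (r := d + 1) F.hom := by
  obtain ⟨φ, L, hF⟩ := h
  obtain rfl := dim_eq H L
  exact ⟨rfl, H.hopfOne L F.hom φ hF he⟩

/-- the based map `Sᵈ → Q₀S⁰` of a based map `S^{d+n} → Sⁿ` -/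
theorem exists_bmap_of {d n : ℕ} (hd : 0 < d) (F : C(T0.Sph (d + n), T0.Sph n)) (hF : F ∞ = ∞) :
    ∃ g : BMap d, Rep g (TopCat.ofHom F : Sph (d + n) ⟶ Sph n) := by
  let A : C(T0.Sph d, T0.Om n) :=
    ⟨fun x => ⟨⟨fun y => F (TJ.join2 x y), F.continuous.comp
      (TJ.continuous_join2.comp (continuous_const.prodMk continuous_id))⟩, by
        show F (TJ.join2 x ∞) = ∞
        rw [TJ.join2_infty_right, hF]⟩,
      T0.continuous_Om_of_uncurry (F.continuous.comp TJ.continuous_join2)⟩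
  have hA : A ∞ = T0.Om.const n := T0.Om.ext fun y => by
    show F (TJ.join2 ∞ y) = ∞
    rw [TJ.join2_infty_left, hF]
  have hc : Continuous fun x : T0.Sph d => T0.toQ n (A x) := (T0.toQ n).hom.continuous.comp A.continuous
  have h0 : T0.toQ n (A ∞) = T0.base := by rw [hA, T0.toQ_const]
  have hmem : ∀ x : T0.Sph d, T0.toQ n (A x) ∈ pathComponent T0.base := by
    intro x
    have := T0.pathConnectedSpace_sph hd
    obtain ⟨γ⟩ : Joined (∞ : T0.Sph d) x := PathConnectedSpace.joined _ _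
    have h1 : Joined (T0.toQ n (A ∞)) (T0.toQ n (A x)) := ⟨γ.map hc⟩
    rw [h0] at h1
    exact h1
  let G : C(T0.Sph d, T0.Q0S0) := ⟨fun x => ⟨T0.toQ n (A x), hmem x⟩, hc.subtype_mk _⟩
  let g : T0.BMap d := ⟨TopCat.ofHom G, Subtype.ext h0⟩
  refine ⟨g, hF, TopCat.ofHom A, hA, fun x => rfl, fun v w => ?_⟩
  rfl

theorem exists_isHopfMap [ContinuousSMul ℝ K] (H : HK K q m e) (he : 0 < e) :
    ∃ (F : Sph (e + (e + 1)) ⟶ Sph (e + 1)) (g : BMap e), Rep g F ∧ IsHopfMap q m F := by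
  obtain ⟨F, φ, L, hF, hF0⟩ := H.exists_hopf
  obtain ⟨g, hg⟩ := exists_bmap_of he F hF0
  exact ⟨TopCat.ofHom F, g, hg, φ, L, hF⟩

end

/-- **The stable classes of the Hopf maps have Hopf invariant one.** -/
theorem IsHopf.hopfOne {d : ℕ} {g : T0.BMap d} (h : IsHopf (d := d) g) :
    (d = 1 ∨ d = 3 ∨ d = 7) ∧ K.HopfOne g := by
  obtain ⟨F, hg, h⟩ := h
  obtain ⟨A, hA, hFA⟩ := hg.exists_adjS
  have key : (d = 1 ∨ d = 3 ∨ d = 7) ∧ TJ.HopfOne (m := d + (d + 1)) (r := d + 1) F.hom := by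
    rcases h with h | h | h
    · obtain ⟨h1, h2⟩ := h.hopfOne hkC ⟨0, by norm_num⟩
      exact ⟨Or.inl h1, h2⟩
    · obtain ⟨h1, h2⟩ := h.hopfOne hkH ⟨1, by norm_num⟩
      exact ⟨Or.inr (Or.inl h1), h2⟩
    · obtain ⟨h1, h2⟩ := h.hopfOne hkO ⟨3, by norm_num⟩
      exact ⟨Or.inr (Or.inr h1), h2⟩
  have hd : 0 < d := by omega
  refine ⟨key.1, ?_⟩
  have h2 := key.2
  rw [hFA] at h2
  exact K.HopfOne.of_rep (i := 0) hd hA rfl h2

/-- **The Hopf maps exist** in the stems `1`, `3`, `7`. -/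
theorem exists_isHopf {d : ℕ} (hd : d = 1 ∨ d = 3 ∨ d = 7) : ∃ g : BMap d, IsHopf g := by
  rcases hd with rfl | rfl | rfl
  · obtain ⟨F, g, hg, h⟩ := exists_isHopfMap hkC (by norm_num)
    exact ⟨g, F, hg, Or.inl h⟩
  · obtain ⟨F, g, hg, h⟩ := exists_isHopfMap hkH (by norm_num)
    exact ⟨g, F, hg, Or.inr (Or.inl h)⟩
  · obtain ⟨F, g, hg, h⟩ := exists_isHopfMap hkO (by norm_num)
    exact ⟨g, F, hg, Or.inr (Or.inr h)⟩

/-- **The Hurewicz images of `η`, `ν`, `σ` are not zero.** -/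
theorem IsHopf.hur_ne {d : ℕ} {g : BMap d} (h : IsHopf g) : hur g ≠ 0 := by
  have h1 := IsHopf.hopfOne (g := g) h
  have hd : 0 < d := by omega
  have h2 := hur_eq hd g
  rw [h2]
  exact TOP.hur_ne_of_hopfOne hd h1.2

/-- Curtis's conjecture with the literal Hopf maps in one degree, from the statement for single
elements and the uniqueness of the non-zero Hurewicz class. -/
theorem curtisLit_at {d : ℕ} (hd : 0 < d) (h : ∀ g : BMap d, hur g ≠ 0 →
      (d = 1 ∨ d = 3 ∨ d = 7) ∨ KervOne g) (hU : HurUnique) :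
    Set.range (hur (d := d)) = VLit d := by
  have e1 : (hur (d := d)) = (T0.hur hd) := funext fun g => hur_eq hd g
  apply Set.Subset.antisymm
  · rintro _ ⟨g, rfl⟩
    by_cases hg : hur g = 0
    · rw [hg]
      exact Submodule.zero_mem _
    · rcases h g hg with h1 | h1
      · obtain ⟨g', hg'⟩ := exists_isHopf h1
        rw [hU d g g' hd hg hg'.hur_ne]
        exact Submodule.subset_span ⟨g', Or.inl hg', rfl⟩
      · exact Submodule.subset_span ⟨g, Or.inr h1, rfl⟩
  · have h2 := T0.V_le hd (fun g : T0.BMap d => IsHopf (d := d) g ∨ KervOne (d := d) g)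
    intro x hx
    have hx' : x ∈ Submodule.span (ZMod 2) (hur (d := d) '' {g | IsHopf g ∨ KervOne g}) := hx
    rw [e1] at hx'
    obtain ⟨g, hg⟩ := h2 hx'
    exact ⟨g, (hur_eq hd g).trans hg⟩

/-- **Curtis's conjecture with the literal Hopf maps**, from the statement for single elements and
the uniqueness of the non-zero Hurewicz class. -/
theorem curtisLit_of (h : ∀ (d : ℕ) (g : BMap d), 0 < d → hur g ≠ 0 →
      (d = 1 ∨ d = 3 ∨ d = 7) ∨ KervOne g) (hU : HurUnique) : CurtisLit :=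
  fun d hd => curtisLit_at hd (fun g hg => h d g hd hg) hU

/-- In the stems `1`, `3`, `7` the image of the Hurewicz map consists of `0` and the class of the
Hopf map, which is not zero. -/
theorem range_of_isHopf (hU : HurUnique) {d : ℕ} {g : BMap d} (h : IsHopf g) :
    hur g ≠ 0 ∧ Set.range (hur (d := d)) = {0, hur g} := by
  have h1 := IsHopf.hopfOne (g := g) h
  have hd : 0 < d := by omega
  refine ⟨h.hur_ne, Set.Subset.antisymm ?_ ?_⟩
  · rintro _ ⟨g', rfl⟩
    by_cases hg : hur g' = 0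
    · exact Or.inl hg
    · exact Or.inr (hU d g' g hd hg h.hur_ne)
  · rintro x (rfl | rfl)
    · exact ⟨cstB d, (hur_eq hd (cstB d)).trans (T0.hur_zero hd)⟩
    · exact ⟨g, rfl⟩

/-- Curtis's conjecture in all degrees which are not of the form `2ˢ - 1`, `s ≥ 4`, or
`2ˢ⁺¹ - 2`. -/
theorem litDims (hU : HurUnique) (hD : HurDims) {d : ℕ} (hd : 0 < d)
    (h1 : ¬ ∃ s : ℕ, 4 ≤ s ∧ d + 1 = 2 ^ s) (h2 : ¬ ∃ s : ℕ, 0 < s ∧ d + 2 = 2 ^ (s + 1)) :
    Set.range (hur (d := d)) = VLit d := by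
  refine curtisLit_at hd (fun g hg => Or.inl ?_) hU
  obtain ⟨s, hs⟩ := (hD d g hd hg).resolve_right h2
  have h3 : s < 4 := by
    by_contra h4
    exact h1 ⟨s, by omega, hs⟩
  interval_cases s <;> omega

end Vale.Agent.P263.ST
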