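import Vale.Agent.P263.ST.V2
import Vale.Agent.P263.ST.HopfStable
import Vale.Agent.P263.K.HPFin

/-!
# P263: Curtis's conjecture

* `curtisElt` : a based map `g : Sᵈ → Q₀S⁰`, `d > 0`, with `h_d(g) ≠ 0` has Hopf invariant one or
  Kervaire invariant one.
* `curtis`, `curtisLit` : for every `d > 0` the image of the Hurewicz map `h_d` is `V_d`.
-/

namespace Vale.Agent.P263.ST

open Vale.Agent.P263.TJ

/-- The image of the Hurewicz map in positive degrees has at most one non-zero element. -/
theorem hurUnique : HurUnique := hurUnique_of_g2 TOP.g2Stmt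

/-- A based map `g : Sᵈ → Q₀S⁰`, `d > 0`, with `h_d(g) ≠ 0` has Hopf invariant one or Kervaire
invariant one. -/
theorem curtisElt : CurtisElt :=
  curtisElt_of_box (fun N => rkBox N) (fun N D => isoUpTo_rkBox _ N D) cmpOne K.hP

/-- **Curtis's conjecture**, with the elements of Hopf invariant one defined by the Adams
filtration. -/
theorem curtis : Curtis := curtis_of_elt curtisElt

/-- **Curtis's conjecture**, with the stable classes of the Hopf maps. -/
theorem curtisLit : CurtisLit :=
  curtisLit_of (fun d g hd hg => (curtisElt d g hd hg).imp (fun h => h.1) id) hurUnique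

end Vale.Agent.P263.ST
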