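import Vale.Agent.P263.ST.Bridge
import Vale.Agent.P263.K.Stmt

/-!
# P263: comparison of the final statement with the statement layer `K`

* `rep_iff` : `F` represents `g` iff `F` is the adjoint `adjS A` of a representative `A`.
* `AF3_iff` : `AF3 g ↔ K.AFge3 g`.
-/

open CategoryTheory Limits OnePoint Topology

namespace Vale.Agent.P263.ST

open Vale.Agent.P263.TJ

/-- Every point of `S^{d+n}` is `∞` or has coordinates `(v, w)`. -/
theorem sph_cases {d n : ℕ} (z : T0.Sph (d + n)) :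
    z = ∞ ∨ ∃ (v : Fin d → ℝ) (w : Fin n → ℝ), z = join2 (v : T0.Sph d) (w : T0.Sph n) := by
  induction z using OnePoint.rec with
  | infty => exact Or.inl rfl
  | coe u =>
    refine Or.inr ⟨fun i => u (Fin.castAdd n i), fun j => u (Fin.natAdd d j), ?_⟩
    rw [join2_coe]
    congr 1
    exact (Fin.append_castAdd_natAdd).symm

theorem eq_adjS {d n : ℕ} (A : C(T0.Sph d, T0.Om n)) (hA : A ∞ = T0.Om.const n)
    (F : C(T0.Sph (d + n), T0.Sph n)) (h0 : F ∞ = ∞)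
    (hF : ∀ (v : Fin d → ℝ) (w : Fin n → ℝ), F (join2 (v : T0.Sph d) (w : T0.Sph n)) =
      A (v : T0.Sph d) (w : T0.Sph n)) : F = adjS A hA := by
  refine ContinuousMap.ext fun z => ?_
  rcases sph_cases z with rfl | ⟨v, w, rfl⟩
  · rw [adjS_infty, h0]
  · rw [adjS_join2, hF]

theorem rep_iff {d n : ℕ} (g : T0.BMap d) (F : C(T0.Sph (d + n), T0.Sph n)) :
    Rep (d := d) (n := n) g (TopCat.ofHom F) ↔
      ∃ (A : C(T0.Sph d, T0.Om n)) (h : K.Rep g n A), F = adjS A h.base := by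
  constructor
  · rintro ⟨h0, A, hA, hg, hF⟩
    exact ⟨A.hom, ⟨hA, hg⟩, eq_adjS A.hom hA F h0 hF⟩
  · rintro ⟨A, h, rfl⟩
    refine ⟨adjS_infty A h.base, TopCat.ofHom A, h.base, h.eq, fun v w => ?_⟩
    have h1 := adjS_join2 A h.base (v : T0.Sph d) (w : T0.Sph n)
    rw [join2_coe] at h1
    exact h1

theorem zeroH_iff {X Y : Type} [TopologicalSpace X] [TopologicalSpace Y] (x : X) (y : Y)
    (f : C(X, Y)) : ZeroH (X := TopCat.of X) (Y := TopCat.of Y) x y (TopCat.ofHom f) ↔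
      K.ZeroH x y f := Iff.rfl

theorem AF3_iff {d : ℕ} (g : T0.BMap d) : AF3 (d := d) g ↔ K.AFge3 g := by
  constructor
  · rintro ⟨n, F, W, W', w, w', f, f', f'', hF, h1, h2, h3, h⟩
    obtain ⟨A, hA, hFA⟩ := (rep_iff g F.hom).1 hF
    refine ⟨n, A, hA, W, W', inferInstance, inferInstance, w, w', f.hom, f'.hom, f''.hom, h1, h2,
      h3, ?_⟩
    rw [← hFA]
    exact h.symm
  · rintro ⟨n, A, hA, W, W', iW, iW', w, w', f, f', f'', h1, h2, h3, h⟩
    exact ⟨n, TopCat.ofHom (adjS A hA.base), TopCat.of W, TopCat.of W', w, w', TopCat.ofHom f,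
      TopCat.ofHom f', TopCat.ofHom f'', (rep_iff g _).2 ⟨A, hA, rfl⟩, h1, h2, h3, h.symm⟩

/-- The statement for single elements follows from the form `K.MainFor` in which it is proved. -/
theorem curtisElt_of {P : ∀ {d : ℕ}, T0.BMap d → Prop} (h : K.MainFor @P)
    (hH : ∀ (d : ℕ) (_ : 0 < d) (g : T0.BMap d), (∃ s : ℕ, d + 1 = 2 ^ s) → K.HopfOne g →
      HopfOne (d := d) g)
    (hP : ∀ (d : ℕ) (_ : 0 < d) (g : T0.BMap d), (∃ s : ℕ, 0 < s ∧ d + 2 = 2 ^ (s + 1)) → P g →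
      ¬ K.AFge3 g) : CurtisElt := by
  intro d g hd hg
  rw [hur_eq hd g] at hg
  rcases h d hd g hg with ⟨h1, h2⟩ | ⟨h1, h2⟩
  · exact Or.inl (hH d hd g h1 h2)
  · exact Or.inr ⟨h1, fun h3 => hP d hd g h1 h2 ((AF3_iff g).1 h3)⟩

end Vale.Agent.P263.ST
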