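import Vale.Agent.P263.TW.RPow
import Vale.Agent.P263.TJ.RkBox
import Vale.Agent.P263.TOP.LitL1

/-!
# P263: `CmpOne` for the rank map
-/

open CategoryTheory OnePoint Topology

namespace Vale.Agent.P263.ST

open Vale.Agent.P263.TOP Vale.Agent.P263.TW Vale.Agent.P263.E Vale.Agent.P263.G2
  Vale.Agent.P263.TOP.H Vale.Agent.P263.S Vale.Agent.P263.EX.GE Vale.Agent.P263.TJ

theorem cmpOne (N : ℕ) : CmpOne towerModel (rkBox N) := by
  intro d hd
  obtain ⟨w, hw, he⟩ := exists_vpow d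
  refine ⟨w, ((ctree (ZMod 2) 1 N).mapZ d (vpowZ d)), hw, ?_, fun r ξ hξ => ?_⟩
  · rw [he]
    rfl
  · exact congrArg (fun c : (SS.F (ZMod 2) (FNr (r + 1) N Unit)).obj d => ev c ξ)
      (funext fun S => rkBox_ctree (r + 1) N d d S)

end Vale.Agent.P263.ST
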