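import Vale.Agent.P263.ST.Bridge
import Vale.Agent.P263.TOP.LitUniq
import Vale.Agent.P263.TOP.ContractFin

/-!
# P263: the dimensions of the spherical classes, from the output of the block `[G2]`
-/

namespace Vale.Agent.P263.ST

open Vale.Agent.P263.TOP

theorem hurDims_of_g2 (h : G2Stmt) : HurDims := hurDims_of (curtisL0 contract h)

theorem hurUnique_of_g2 (h : G2Stmt) : HurUnique :=
  hurUnique_of fun _ hd g g' hg hg' => TOP.hur_eq contract h hd g g' hg hg'

end Vale.Agent.P263.ST
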