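import Vale.Agent.P263.ST.Adams
import Vale.Agent.P263.ST.L0
import Vale.Agent.P263.ST.RepEx
import Vale.Agent.P263.TOP.LitL1
import Vale.Agent.P263.TOP.G2Done

/-!
# P263: the final assembly

`elt_of` : for a based map `g : Sᵈ → Q₀S⁰` with `h_d(g) ≠ 0`, either `d = 2ˢ - 1` and `g` has Hopf
invariant one, or `d = 2ˢ⁺¹ - 2` and `P`, from the comparison maps `e` and the values in length two.
-/

open CategoryTheory OnePoint Topology

namespace Vale.Agent.P263.ST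

open Vale.Agent.P263.TOP Vale.Agent.P263.TW Vale.Agent.P263.E Vale.Agent.P263.G2
  Vale.Agent.P263.TOP.H Vale.Agent.P263.S Vale.Agent.P263.EX.GE

theorem hopfOne_of_st {d : ℕ} (hd : 0 < d) {g : T0.BMap d} (h : HopfSt g) : K.HopfOne g := by
  obtain ⟨r0, h⟩ := h
  obtain ⟨A, hA, hH⟩ := h (r0 + d) (Nat.le_add_right _ _)
  exact K.HopfOne.of_rep (i := r0) hd hA (by omega) hH

theorem elt_of (e : ∀ N, SS.Map (FN N Unit) (Gam N)) (he : ∀ N D, G.IsoUpTo (ZMod 2) D (e N))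
    (hc : ∀ N, CmpOne towerModel (e N)) {d : ℕ} (hd : 0 < d) (g : T0.BMap d)
    (hg : T0.hur hd g ≠ 0) {P : Prop}
    (hP : ∀ (k : ℕ) (G : Geo d (2 ^ k)), 0 < k → hfun G.phi 1 = 0 → G.phi ≠ 0 →
      (∃ r0 : ℕ, ∀ r, r0 ≤ r → Nonempty (Stage G (e (2 ^ k)) g.1.hom r)) → P) :
    ((∃ s : ℕ, d + 1 = 2 ^ s) ∧ K.HopfOne g) ∨
      ((∃ s : ℕ, 0 < s ∧ d + 2 = 2 ^ (s + 1)) ∧ P) := by
  rcases main_of_stage contract g2MapStmt e he hc hd g hg hP with ⟨h1, h2⟩ | h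
  · exact Or.inl ⟨h1, hopfOne_of_st hd h2⟩
  · exact Or.inr h

/-- The statement in odd stems, from the comparison maps. -/
theorem hopf_or_dim (e : ∀ N, SS.Map (FN N Unit) (Gam N))
    (he : ∀ N D, G.IsoUpTo (ZMod 2) D (e N)) (hc : ∀ N, CmpOne towerModel (e N)) (d : ℕ)
    (g : BMap d) (hd : 0 < d) (hg : hur g ≠ 0) :
    ((d = 1 ∨ d = 3 ∨ d = 7) ∧ ¬ AF2 g) ∨ ∃ s : ℕ, 0 < s ∧ d + 2 = 2 ^ (s + 1) := by
  have hg' : T0.hur hd g ≠ 0 := by
    rw [← hur_eq hd g]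
    exact hg
  rcases elt_of e he hc hd g hg' (P := True) (fun _ _ _ _ _ _ => trivial) with ⟨h1, h2⟩ | h
  · exact Or.inl (hopfOne_of_K hd h1 h2)
  · exact Or.inr h.1

/-- The final theorem for single elements, from the comparison maps and the box value in length
two. -/
theorem curtisElt_of_box (e : ∀ N, SS.Map (FN N Unit) (Gam N))
    (he : ∀ N D, G.IsoUpTo (ZMod 2) D (e N)) (hc : ∀ N, CmpOne towerModel (e N))
    (hP : ∀ (d : ℕ) (_ : 0 < d) (g : T0.BMap d) (k : ℕ) (G : Geo d (2 ^ k)), 0 < k →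
      hfun G.phi 1 = 0 → G.phi ≠ 0 →
      (∃ r0 : ℕ, ∀ r, r0 ≤ r → Nonempty (Stage G (e (2 ^ k)) g.1.hom r)) → ¬ K.AFge3 g) :
    CurtisElt := by
  refine curtisElt_of_main fun d hd g hg => ?_
  rcases elt_of e he hc hd g hg (P := ¬ K.AFge3 g) (hP d hd g) with h | ⟨h1, h2⟩
  · exact Or.inl h
  · exact Or.inr ⟨h1, h1, h2⟩

end Vale.Agent.P263.ST
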