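import Vale.Agent.P263.ST.HopfAF
import Vale.Agent.P263.AD.AdamsF
import Vale.Agent.P263.AD.Hopf

/-!
# P263: elements of Hopf invariant one, the final form

`hopfOne_of_K` : an element of Hopf invariant one in a stem `d = 2ˢ - 1` has `d = 1`, `3` or `7`
(Adams) and Adams filtration one.
-/

namespace Vale.Agent.P263.ST

theorem even_succ {d : ℕ} (hd : 0 < d) (h : ∃ s : ℕ, d + 1 = 2 ^ s) : Even (d + 1) := by
  obtain ⟨s, hs⟩ := h
  rcases Nat.eq_zero_or_pos s with rfl | h0
  · exfalso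
    rw [pow_zero] at hs
    omega
  · rw [hs]
    exact (Nat.even_pow.2 ⟨even_two, h0.ne'⟩)

theorem hopfOne_of_K {d : ℕ} (hd : 0 < d) {g : T0.BMap d} (hs : ∃ s : ℕ, d + 1 = 2 ^ s)
    (h : K.HopfOne g) : HopfOne (d := d) g :=
  ⟨AD.adams_Q AD.HC.fibreDeg hd (even_succ hd hs) h, not_AF2_of_hopfOne hd h⟩

/-- The final statement for single elements. -/
theorem curtisElt_of_main (h : K.MainFor fun g => K.KervOne g) : CurtisElt :=
  curtisElt_of h (fun _ hd _ hs hg => hopfOne_of_K hd hs hg) fun _ _ _ _ hg => hg.2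

end Vale.Agent.P263.ST
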