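import Vale.Agent.P263.ST.Curtis
import Vale.Agent.P263.T0.Hur

/-!
# P263: comparison of the final statement with the objects of `T0`
-/

open CategoryTheory Limits OnePoint Topology

namespace Vale.Agent.P263.ST

theorem Sph_eq (n : ℕ) : Sph n = TopCat.of (T0.Sph n) := rfl

theorem Om_eq (n : ℕ) : Om n = TopCat.of (T0.Om n) := rfl

theorem sus_eq (n : ℕ) (f : T0.Om n) : sus (n := n) f = T0.stab n f := rfl

theorem seq_eq : seq = T0.omSeq := rfl

theorem QS0_eq : QS0 = T0.QS0 := rfl

theorem toQ_eq (n : ℕ) (f : T0.Om n) : toQ n f = T0.toQ n f := rfl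

theorem base_eq : base = T0.base := rfl

theorem Q0S0_eq : Q0S0 = T0.Q0S0 := rfl

theorem base0_eq : base0 = T0.base0 := rfl

theorem H_eq (j : ℕ) : H j = T0.H j := rfl

theorem BMap_eq (d : ℕ) : BMap d = T0.BMap d := rfl

theorem fund_eq {d : ℕ} (hd : 0 < d) : fund d = T0.fund hd := by
  have h : fund d ≠ 0 := Classical.epsilon_spec (p := fun x : (H d).obj (Sph d) => x ≠ 0)
    ⟨T0.fund hd, T0.fund_ne_zero hd⟩
  exact (T0.eq_zero_or_fund hd (fund d)).resolve_left h

theorem hur_eq {d : ℕ} (hd : 0 < d) (g : T0.BMap d) : hur (d := d) g = T0.hur hd g := by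
  show (T0.H d).map g.1 (fund d) = (T0.H d).map g.1 (T0.fund hd)
  rw [fund_eq hd]

/-- the dimensions -/
theorem hurDims_of (h : T0.CurtisL0) : HurDims := by
  intro d g hd hg
  rw [hur_eq hd g] at hg
  rcases (T0.curtisL0At_iff hd).1 (h d hd) g hg with h1 | ⟨s, hs⟩
  · exact Or.inl h1
  · refine Or.inr ⟨s, ?_, hs⟩
    rcases Nat.eq_zero_or_pos s with rfl | h0
    · exfalso
      omega
    · exact h0

theorem hurUnique_of (h : ∀ (d : ℕ) (hd : 0 < d) (g g' : T0.BMap d), T0.hur hd g ≠ 0 →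
    T0.hur hd g' ≠ 0 → T0.hur hd g = T0.hur hd g') : HurUnique := by
  intro d g g' hd hg hg'
  have h1 := hur_eq hd g
  have h2 := hur_eq hd g'
  rw [h1] at hg
  rw [h2] at hg'
  exact h1.trans ((h d hd g g' hg hg').trans h2.symm)

/-- Curtis's conjecture follows from the statement for single elements. -/
theorem curtis_of_elt (h : CurtisElt) : Curtis := by
  intro d hd
  have h1 := T0.range_hur_eq_V hd (fun g => HopfOne (d := d) g ∨ KervOne (d := d) g) fun g hg =>
    h d g hd (by rw [hur_eq hd g]; exact hg)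
  have h2 : (hur (d := d)) = (T0.hur hd) := funext fun g => hur_eq hd g
  show Set.range (hur (d := d)) =
    (Submodule.span (ZMod 2) (hur (d := d) '' {g | HopfOne g ∨ KervOne g}) : Set _)
  rw [h2]
  exact h1

end Vale.Agent.P263.ST
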