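import Vale.Agent.P263.ST.Low
import Vale.Agent.P263.TOP.LitL1
import Vale.Agent.P263.TJ.MuInj

/-!
# P263: the Hurewicz image of an element of Hopf invariant one is not zero

`hur_ne_zero_of_hopfOne` : if `g : Sᵈ → Q₀S⁰`, `d > 0`, has Hopf invariant one then `h_d(g) ≠ 0`.
-/

open CategoryTheory OnePoint Topology

namespace Vale.Agent.P263.ST

open Vale.Agent.P263.S Vale.Agent.P263.E Vale.Agent.P263.G2 Vale.Agent.P263.TJ
  Vale.Agent.P263.T0 Vale.Agent.P263.TOP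

theorem isBd_of_ev {k : Type} [Field k] {X : SS} {p : ℕ} {z : Chn k X p}
    (h : ∀ c ∈ (SS.F k X).Z p, ev c z = 0) : IsBd z := by
  by_contra hcon
  obtain ⟨l, hl, hlz⟩ := exists_separating (bds k X p) (v := z) hcon
  have hc : ofLin l ∈ (SS.F k X).Z p := mem_Z_iff.2 fun w => by
    rw [ev_ofLin]
    exact hl _ ⟨w, rfl⟩
  exact hlz (by rw [← ev_ofLin]; exact h _ hc)

/-- A map which is zero in homology maps the fundamental cycle to a boundary. -/
theorem isBd_sphCyc {d : ℕ} (hd : 0 < d) (g : C(T0.Sph d, T0.Q0S0))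
    (h0 : (T0.H d).map (TopCat.ofHom g) = 0) :
    IsBd (push (ZMod 2) (singMap g) d (sphCyc d)) := by
  have h1 := (map_zero_iff g).2 h0
  refine isBd_of_ev fun c hc => ?_
  have h2 := h1 ((SS.F (ZMod 2) (sing T0.Q0S0)).cls d ⟨c, hc⟩)
  rw [Hom.mapH_cls, CosMod.cls_eq_zero_iff] at h2
  have h3 := mem_Bd_iff.1 h2 _ ((isCyc_sphCyc hd).push (toSing (T0.Sph d)))
  rw [← push_ofSing_toSing]
  exact (ev_push _ c _).trans h3

/-- ... and so does every representative at a large stage. -/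
theorem exists_isBd_stage {d : ℕ} (hd : 0 < d) (g : C(T0.Sph d, T0.Q0S0))
    (h0 : (T0.H d).map (TopCat.ofHom g) = 0) :
    ∃ r0 : ℕ, ∀ r, r0 ≤ r → ∀ A : C(T0.Sph d, T0.Om r), (∀ x, toQC r (A x) = (g x).1) →
      IsBd (push (ZMod 2) (singMap A) d (sphCyc d)) := by
  obtain ⟨η, hη⟩ := isBd_sphCyc hd g h0
  obtain ⟨r0, h⟩ := exists_om_chain (push (ZMod 2) (singMap q0in) (d + 1) η)
  refine ⟨r0, fun r hr A hA => ?_⟩
  obtain ⟨η', hη'⟩ := h r hr
  refine ⟨η', push_injective (k := ZMod 2) (f := singMap (toQC r))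
    (singMap_inj (toQC_injective r)) d ?_⟩
  rw [← push_cb, hη', push_cb, hη, ← push_comp, ← push_comp, ← singMap_comp, ← singMap_comp]
  have e : (q0in.comp g) = (toQC r).comp A := ContinuousMap.ext fun x => (hA x).symm
  rw [e]

/-- If the image of the fundamental cycle is a boundary then the Hopf invariant is not one. -/
theorem not_hopfOne_of_isBd {d r i : ℕ} (hd : 0 < d) (hr : i + d + 1 = r)
    {A : C(T0.Sph d, T0.Om r)} (hA : A ∞ = T0.Om.const r)
    (hη : IsBd (push (ZMod 2) (singMap A) d (fcyc d))) : ¬ HopfOne (adjS A hA) := by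
  obtain ⟨D, -, -, hD⟩ := exists_BC (d := d) (r := r) (i := i) hr
  obtain ⟨u, hu⟩ : ∃ u, u = par (intg r) D (SS.Map.id (G2.sing (Om r))) := ⟨_, rfl⟩
  have hdu : Cc.d u = 0 := by rw [hu]; exact d_par _ _ _
  have hdeg : Cc.IsDeg 0 u := by rw [hu]; exact isDeg_par _ _ _
  have hpar : ∀ {Y : SS} (g : SS.Map Y (G2.sing (Om r))),
      par (intg r) D g = Cc.pull g u := by
    intro Y g
    rw [hu, ← par_comp]
    rfl
  have hA0 : Cc.pull (singMap A) u = 0 := by rw [← hpar]; exact par_sph _ _ hd hA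
  obtain ⟨W₀, hW₀⟩ : ∃ W, IsW (intg r) D (zCl hdu).inc W :=
    isW_iff_par.2 (by rw [hpar]; exact zCl_inc hdu hdeg)
  obtain ⟨W, hW, hWdeg, hWd⟩ := hW₀.exists_deg
  have h2 : IsW (intg r) D (singMap A) (Cc.pull (zMap hdu (singMap A) hA0) W) :=
    hW.pull (zMap hdu (singMap A) hA0)
  obtain ⟨η, hη⟩ := hη
  have h3 : cb (ZMod 2) _ d ((zCl hdu).pr (ZMod 2) (d + 1) η) =
      push (ZMod 2) (zMap hdu (singMap A) hA0) d (fcyc d) := by
    rw [GB.Cl.cb_pr, hη]
    have e2 : push (ZMod 2) (singMap A) d (fcyc d) = push (ZMod 2) (zCl hdu).inc d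
        (push (ZMod 2) (zMap hdu (singMap A) hA0) d (fcyc d)) := by
      rw [← push_comp]
      rfl
    rw [e2, GB.Cl.pr_inc]
  have h4 : evc (Cc.pull (zMap hdu (singMap A) hA0) W) (fcyc d) = 0 := by
    rw [evc_pull, ← h3, ← evc_d, hWd, evc_zero]
  rw [evc_fcyc] at h4
  rw [h2.hopfOne_iff hd hD A hA]
  intro h5
  have h6 := (SphCc.coh_iff hd (hWdeg.pull (zMap hdu (singMap A) hA0)) (by
    rw [← pull_d, hWd, pull_zero])).2 h4
  obtain ⟨a, ha⟩ := exists_of_coh h6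
  exact h5 a ha

/-- **The Hurewicz image of an element of Hopf invariant one is not zero.** -/
theorem hur_ne_zero_of_hopfOne {d : ℕ} (hd : 0 < d) {g : T0.BMap d} (h : K.HopfOne g) :
    T0.hur hd g ≠ 0 := by
  intro h0
  have h1 : (T0.H d).map (TopCat.ofHom g.1.hom) = 0 := (hur_eq_zero_iff hd g).1 h0
  obtain ⟨r0, hr0⟩ := exists_isBd_stage hd g.1.hom h1
  obtain ⟨n, hn, A, hA⟩ := K.exists_rep hd g (max r0 (d + 1))
  have h2 := (AD.Su.hopfOne_iff_rep hd (by omega) hA).1 h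
  exact not_hopfOne_of_isBd (i := n - (d + 1)) hd (by omega) hA.base
    (hr0 n (by omega) A hA.eq) h2

end Vale.Agent.P263.ST
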