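import Vale.Agent.P263.AD.Rep

/-!
# P263: elements of Hopf invariant one have no representatives at the stages `n ≤ d`

`not_hopfOne_of_low` : the suspension `S^(2d+1) → S^(d+1)` of a map `S^(2d) → S^d` does not have
Hopf invariant one. `lt_of_hopfOne` : if `g : Sᵈ → Q₀S⁰` has Hopf invariant one and is represented
by `Sᵈ → Ωⁿ Sⁿ`, then `d < n`.
-/

open Finset OnePoint Topology

namespace Vale.Agent.P263.ST

open Vale.Agent.P263.S Vale.Agent.P263.E Vale.Agent.P263.H83 Vale.Agent.P263.G2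
  Vale.Agent.P263.T0 Vale.Agent.P263.TJ Vale.Agent.P263.AD.Su

/-- The suspension of `(b, e)`: the cup square of the suspension of `b` is zero. -/
def suspZero {X Y : SS} (f : SS.Map X Y) (b : (Cc.cupC Y).C) (e : (Cc.cupC X).C)
    (hb : (Cc.cupC Y).d b = 0) (he : (Cc.cupC X).d e = (Cc.pullHom f).f b) :
    CupC.FSqD (gT f) 0 where
  b := s1 b
  e := s1 e
  c := 0
  d_b := by rw [d_s1, hb, s1_zero]
  d_e := by rw [d_s1, gT_s1, he]
  d_c := by rw [cup_s1, CupC.cup_zero, s1_zero, map_zero]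

theorem suspZero_val {X Y : SS} (f : SS.Map X Y) (b : (Cc.cupC Y).C) (e : (Cc.cupC X).C)
    (hb : (Cc.cupC Y).d b = 0) (he : (Cc.cupC X).d e = (Cc.pullHom f).f b) :
    (suspZero f b e hb he).val = 0 := by
  change (Cc.rel (ends X 1)).cup 0 (s1 e) (s1 e) +
    (Cc.rel (ends X 1)).cup (0 + 1) (s1 e) ((Cc.rel (ends X 1)).d (s1 e)) + (gT f).f 0 = 0
  rw [d_s1, cup_s1, CupC.cup_zero, CupC.cup_zero, map_zero, s1_zero, add_zero, add_zero]

section Sphere

variable {m n : ℕ} (f : C(Sph m, Sph (n + 1))) (F : C(Sph (m + 1), Sph (n + 2)))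

/-- The suspension `S^(2n+3) → S^(n+2)` of a map `S^(2n+2) → S^(n+1)` does not have Hopf invariant
one. -/
theorem not_hopfOne_of_low (hm : m = 2 * n + 2) (h0 : f ∞ = ∞)
    (hF : ∀ (x : Sph m) (y : Sph 1), F (join2 x y) = join2 (f x) y) : ¬ HopfOne F := by
  intro h
  have hF0 : F ∞ = ∞ := susp_infty f h0 hF
  have hi' : 2 * (n + 1) + 1 = (m + 1) + 0 := by omega
  have hm' : n + 1 + 1 < m + 1 := by omega
  obtain ⟨D', hD', hb', hv'⟩ := (hopfOne_iff_exists hi' hm' hF0).1 h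
  let E' : CupC.FSqD (gT (singMap f)) 0 := D'.map (gMu (n + 1) 1) (gMu m 1) (fun x =>
    Cc.rel_ext (congrArg (fun g => Cc.pull g (Cc.val x)) (comm_mu f F hF)))
  have hE'v : E'.val = (gMu m 1).f D'.val := D'.val_map _ _ _
  have hE' : E'.Homog (Cc.relGr _) (Cc.relGr _) (n + 1) (m + 1) :=
    ⟨Cc.IsDeg.pull (u := Cc.val D'.b) hD'.b_mem _, Cc.IsDeg.pull (u := Cc.val D'.e) hD'.e_mem _,
      Cc.IsDeg.pull (u := Cc.val D'.c) hD'.c_mem _, hi'⟩
  have hE'b : ¬ (Cc.rel (ends (sing (Sph (n + 1))) 1)).Coh E'.b 0 := fun hc =>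
    hb' (mu_inj (Nat.succ_pos n) hD'.b_mem D'.d_b hc)
  -- data of `f`
  obtain ⟨b, hb, hdb, h1⟩ := SphCc.exists_fund (n + 1)
  have hbn : ¬ (Cc.cupC (sing (Sph (n + 1)))).Coh b 0 := by
    rw [SphCc.coh_iff (Nat.succ_pos n) hb hdb, h1]
    decide
  obtain ⟨e, he⟩ := CupC.Gr.Van.exists (G := Cc.gr (sing (Sph m))) (z := (Cc.pullHom (singMap f)).f b)
    (SphCc.van (d := m) (n := n + 1) (by omega) (by omega)) (Cc.IsDeg.pull (u := b) hb (singMap f))
    (((Cc.pullHom (singMap f)).f_d (b : (Cc.cupC (sing (Sph (n + 1)))).C)).symm.trans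
      ((congrArg _ hdb).trans (map_zero _)))
  let S := suspZero (singMap f) b e hdb he.symm
  have hSb : ¬ (Cc.rel (ends (sing (Sph (n + 1))) 1)).Coh S.b 0 := fun hc => hbn (coh_of_s1 hc)
  have hSd : S.b ∈ (Cc.relGr (ends (sing (Sph (n + 1))) 1)).deg (n + 1 + 1) := isDeg_sn 1 hb
  -- uniqueness of the class
  have huniq : (Cc.rel (ends (sing (Sph (n + 1))) 1)).Coh E'.b S.b := by
    have h1 : ∀ z : (Cc.rel (ends (sing (Sph (n + 1))) 1)).C, (Cc.rel (ends _ 1)).d z = 0 →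
        ¬ (Cc.rel (ends _ 1)).Coh z 0 → ¬ (Cc.cupC (sing (Sph (n + 1)))).Coh (DstN 1 (Cc.val z)) 0 := by
      intro z hz hn hc
      obtain ⟨a, ha⟩ := exists_of_coh hc
      exact hn (rel_null_of_Dst hz ha)
    have h2 := coh_of_ne (Nat.succ_pos n) (isDeg_DstN (n := 1) hE'.b_mem) (d_Dst E'.d_b)
      (isDeg_DstN (n := 1) hSd) (d_Dst S.d_b) (h1 _ E'.d_b hE'b) (h1 _ S.d_b hSb)
    obtain ⟨a, ha⟩ := exists_of_coh (CupC.coh_iff_add.1 h2)
    refine CupC.coh_iff_add.2 (rel_null_of_Dst (z := E'.b + S.b) (a := a) ?_ ?_)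
    · rw [map_add, E'.d_b, S.d_b, add_zero]
    · rw [← ha]
      exact DstN_add 1 (Cc.val E'.b) (Cc.val S.b)
  obtain ⟨a₀, ha₀⟩ := huniq
  let GV := Cc.relGr (ends (sing (Sph (n + 1))) 1)
  obtain ⟨a, ha, hab⟩ := GV.exists_of_d ((GV.deg (n + 1 + 1)).add_mem hE'.b_mem hSd) ha₀
  obtain ⟨h1, h2, h3⟩ := E'.val_coh S hab
  have hvan : GV.Van (m + 1) := rel_van_succ (SphCc.van (by omega) (by omega))
  have hc : S.c ∈ GV.deg (m + 1) := (GV.deg (m + 1)).zero_mem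
  have hy := hvan _ ((GV.deg (m + 1)).add_mem ((GV.deg (m + 1)).add_mem
    ((GV.deg (m + 1)).add_mem ((GV.deg (m + 1)).add_mem hE'.c_mem hc)
      ((GV.deg (m + 1)).add_mem (GV.cup_mem_zero ha ha 0 (by omega))
        (GV.cup_mem (n + 1) (n + 1 + 1) 0 (m + 1) _ _ ha (GV.d_mem ha) (by omega))))
    (GV.cup_mem (n + 1 + 1) (n + 1) 0 (m + 1) _ _ hE'.b_mem ha (by omega)))
    (GV.cup_mem (n + 1) (n + 1 + 1) 0 (m + 1) _ _ ha hE'.b_mem (by omega))) h2
  have h4 := hy.map (gT (singMap f))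
  rw [map_zero] at h4
  rw [CupC.cup_zero, zero_add] at h3
  have hS0 : S.val = 0 := suspZero_val (singMap f) b e hdb he.symm
  rw [hS0, add_zero] at h3
  have h5 := h3.trans h4
  rw [hE'v] at h5
  exact hv' (mu_inj (by omega) (val_isDeg hD') D'.d_val h5)

end Sphere

/-- representatives at higher stages -/
theorem exists_rep_add {d n : ℕ} {g : BMap d} {A : C(Sph d, Om n)} (h : K.Rep g n A) (k : ℕ) :
    ∃ A' : C(Sph d, Om (n + k)), K.Rep g (n + k) A' := by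
  induction k with
  | zero => exact ⟨A, h⟩
  | succ k ih =>
    obtain ⟨A', h'⟩ := ih
    exact ⟨_, rep_stab h'⟩

/-- **Elements of Hopf invariant one are represented only at the stages `n > d`.** -/
theorem lt_of_hopfOne {d : ℕ} (hd : 0 < d) {g : BMap d} (h : K.HopfOne g) {n : ℕ}
    {A : C(Sph d, Om n)} (hA : K.Rep g n A) : d < n := by
  by_contra hn
  obtain ⟨k, hk⟩ := Nat.exists_eq_add_of_le (Nat.le_of_not_lt hn)
  obtain ⟨A', hA'⟩ : ∃ A' : C(Sph d, Om d), K.Rep g d A' := by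
    have h1 := exists_rep_add hA k
    rw [← hk] at h1
    exact h1
  have hH := (hopfOne_iff_rep hd le_rfl (rep_stab hA')).1 h
  clear hn hk hA
  obtain ⟨m, rfl⟩ : ∃ m, d = m + 1 := ⟨d - 1, by omega⟩
  exact not_hopfOne_of_low (m := m + 1 + (m + 1)) (n := m) (adjS A' hA'.base)
    (adjS ((T0.stab (m + 1)).comp A') (rep_stab hA').base) (by omega) (adjS_infty A' hA'.base)
    (adjS_stab A' hA'.base (rep_stab hA').base) hH

end Vale.Agent.P263.ST
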