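import Vale.Agent.P263.ST.Bridge2
import Vale.Agent.P263.TJ.HopfAF
import Vale.Agent.P263.ST.Low

/-!
# P263: elements of Hopf invariant one do not have Adams filtration two
-/

open CategoryTheory Limits OnePoint Topology

namespace Vale.Agent.P263.ST

open Vale.Agent.P263.TJ

/-- a map which is zero in reduced homology is zero in positive degrees -/
theorem zeroH_map {X Y : Type} [TopologicalSpace X] [TopologicalSpace Y] {x : X} {y : Y}
    {f : C(X, Y)} (h : K.ZeroH x y f) {j : ℕ} (hj : j ≠ 0) :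
    (T0.H j).map (TopCat.ofHom f) = 0 :=
  (h.2 j).trans (T0.H_map_const (S := TopCat.of X) (X := TopCat.of Y) y hj)

/-- A map of Hopf invariant one is not homotopic to a composite of two maps which are zero in
reduced homology. -/
theorem hopfOne_not_comp {m n i : ℕ} (hi : 2 * n + 1 = m + i) (hm : n + 1 < m)
    {F : C(T0.Sph m, T0.Sph (n + 1))} (hF₀ : F ∞ = ∞) (hH : TJ.HopfOne F) {W : Type}
    [TopologicalSpace W] (w : W) (f₁ : C(T0.Sph m, W)) (f₂ : C(W, T0.Sph (n + 1)))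
    (h₁ : K.ZeroH (∞ : T0.Sph m) w f₁) (h₂ : K.ZeroH w (∞ : T0.Sph (n + 1)) f₂)
    (hF : F.HomotopicRel (f₂.comp f₁) {∞}) : False :=
  hH.not_comp hi hm hF₀ f₁ f₂ (zeroH_map h₁ (by omega)) (zeroH_map h₂ (by omega)) hF

/-- A map `S^{d+n} → Sⁿ` which represents an element of Hopf invariant one, is not
homotopic to a composite of two maps which are zero in reduced homology. -/
theorem not_comp_of_hopfOne {d : ℕ} (hd : 0 < d) {g : T0.BMap d} (h : K.HopfOne g) {n : ℕ}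
    {A : C(T0.Sph d, T0.Om n)} (hA : K.Rep g n A) {W : Type} [TopologicalSpace W] (w : W)
    (f₁ : C(T0.Sph (d + n), W)) (f₂ : C(W, T0.Sph n))
    (h₁ : K.ZeroH (∞ : T0.Sph (d + n)) w f₁) (h₂ : K.ZeroH w (∞ : T0.Sph n) f₂)
    (hF : (adjS A hA.base).HomotopicRel (f₂.comp f₁) {∞}) : False := by
  have hn := lt_of_hopfOne hd h hA
  have hH := (AD.Su.hopfOne_iff_rep hd hn hA).1 h
  obtain ⟨n, rfl⟩ : ∃ m, n = m + 1 := ⟨n - 1, by omega⟩
  obtain ⟨i, hi⟩ : ∃ i, 2 * n + 1 = d + (n + 1) + i := ⟨n - d, by omega⟩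
  exact hopfOne_not_comp hi (by omega) (adjS_infty A hA.base) hH w f₁ f₂ h₁ h₂ hF

/-- **Hopf invariant one implies Adams filtration one.** -/
theorem not_AF2_of_hopfOne {d : ℕ} (hd : 0 < d) {g : T0.BMap d} (h : K.HopfOne g) :
    ¬ AF2 (d := d) g := by
  rintro ⟨n, F, W, w, f₁, f₂, hF, h1, h2, h3⟩
  obtain ⟨A, hA, hFA⟩ := (rep_iff g F.hom).1 hF
  refine not_comp_of_hopfOne hd h hA (W := W) w f₁.hom f₂.hom h1 h2 ?_
  rw [← hFA]
  exact h3

end Vale.Agent.P263.ST
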