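import Mathlib.Analysis.InnerProductSpace.ProdL2
import Vale.Agent.P263.ST.HopfMaps
import Vale.Agent.P263.K.HopfEx

/-!
# P263: the complex numbers, the quaternions and the octonions as normed products
-/

open scoped Quaternion

namespace Vale.Agent.P263.ST

open Vale.Agent.P263.K

/-- the complex numbers -/
noncomputable def hkC : HK ℂ (fun a => ‖a‖ ^ 2) (fun a b => a * star b) 1 where
  φ := Complex.orthonormalBasisOneI.repr.toContinuousLinearEquiv
  q_eq x := by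
    show ‖x‖ ^ 2 = ‖Complex.orthonormalBasisOneI.repr x‖ ^ 2
    rw [LinearIsometryEquiv.norm_map]
  cont := by fun_prop
  q_m a b := by rw [norm_mul, norm_star, mul_pow]
  smul_m t a b := smul_mul_assoc t a (star b)
  m_smul t a b := by rw [star_smul, star_trivial, mul_smul_comm]
  o := 1
  q_o := by rw [norm_one, one_pow]
  m_o a := by rw [star_one, mul_one]
  o_m a := by rw [one_mul, one_mul, star_star]

/-- the quaternions -/
noncomputable def hkH : HK ℍ[ℝ] (fun a => ‖a‖ ^ 2) (fun a b => a * star b) 3 where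
  φ := Quaternion.linearIsometryEquivTuple.toContinuousLinearEquiv
  q_eq x := by
    show ‖x‖ ^ 2 = ‖Quaternion.linearIsometryEquivTuple x‖ ^ 2
    rw [LinearIsometryEquiv.norm_map]
  cont := by fun_prop
  q_m a b := by rw [norm_mul, norm_star, mul_pow]
  smul_m t a b := smul_mul_assoc t a (star b)
  m_smul t a b := by rw [Quaternion.star_smul, mul_smul_comm]
  o := 1
  q_o := by rw [norm_one, one_pow]
  m_o a := by rw [star_one, mul_one]
  o_m a := by rw [one_mul, one_mul, star_star]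

theorem qO_mul (x y : ℍ[ℝ] × ℍ[ℝ]) :
    ‖(octMul x (octConj y)).1‖ ^ 2 + ‖(octMul x (octConj y)).2‖ ^ 2 =
      (‖x.1‖ ^ 2 + ‖x.2‖ ^ 2) * (‖y.1‖ ^ 2 + ‖y.2‖ ^ 2) := by
  obtain ⟨a, b⟩ := x
  obtain ⟨c, e⟩ := y
  show ‖a * star c - star (-e) * b‖ ^ 2 + ‖(-e) * a + b * star (star c)‖ ^ 2 =
    (‖a‖ ^ 2 + ‖b‖ ^ 2) * (‖c‖ ^ 2 + ‖e‖ ^ 2)
  have h : ∀ z : ℍ[ℝ], ‖z‖ ^ 2 = z.re ^ 2 + z.imI ^ 2 + z.imJ ^ 2 + z.imK ^ 2 := by
    intro z
    rw [← Quaternion.normSq_def', sq]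
    exact (Quaternion.normSq_eq_norm_mul_self z).symm
  rw [h, h, h, h, h, h]
  simp only [Quaternion.re_sub, Quaternion.imI_sub, Quaternion.imJ_sub, Quaternion.imK_sub,
    Quaternion.re_add, Quaternion.imI_add, Quaternion.imJ_add, Quaternion.imK_add,
    Quaternion.re_mul, Quaternion.imI_mul, Quaternion.imJ_mul, Quaternion.imK_mul,
    Quaternion.re_neg, Quaternion.imI_neg, Quaternion.imJ_neg, Quaternion.imK_neg,
    Quaternion.re_star, Quaternion.imI_star, Quaternion.imJ_star, Quaternion.imK_star]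
  ring

theorem finrank_oct : Module.finrank ℝ (WithLp 2 (ℍ[ℝ] × ℍ[ℝ])) = 8 := by
  rw [(WithLp.linearEquiv 2 ℝ (ℍ[ℝ] × ℍ[ℝ])).finrank_eq, Module.finrank_prod,
    Quaternion.finrank_eq_four]

/-- coordinates of the octonions -/
noncomputable def phiO : (ℍ[ℝ] × ℍ[ℝ]) ≃L[ℝ] EuclideanSpace ℝ (Fin (7 + 1)) :=
  (WithLp.prodContinuousLinearEquiv 2 ℝ ℍ[ℝ] ℍ[ℝ]).symm.trans
    ((stdOrthonormalBasis ℝ (WithLp 2 (ℍ[ℝ] × ℍ[ℝ]))).reindex
      (finCongr finrank_oct)).repr.toContinuousLinearEquiv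

theorem norm_phiO (x : ℍ[ℝ] × ℍ[ℝ]) : ‖phiO x‖ ^ 2 = ‖x.1‖ ^ 2 + ‖x.2‖ ^ 2 := by
  have h1 : ‖phiO x‖ = ‖(WithLp.prodContinuousLinearEquiv 2 ℝ ℍ[ℝ] ℍ[ℝ]).symm x‖ :=
    LinearIsometryEquiv.norm_map ((stdOrthonormalBasis ℝ (WithLp 2 (ℍ[ℝ] × ℍ[ℝ]))).reindex
      (finCongr finrank_oct)).repr _
  rw [h1, WithLp.prod_norm_sq_eq_of_L2]
  rfl

/-- the octonions -/
noncomputable def hkO : HK (ℍ[ℝ] × ℍ[ℝ]) (fun a => ‖a.1‖ ^ 2 + ‖a.2‖ ^ 2)
    (fun a b => octMul a (octConj b)) 7 where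
  φ := phiO
  q_eq x := (norm_phiO x).symm
  cont := by
    unfold octMul octConj
    fun_prop
  q_m a b := qO_mul a b
  smul_m t a b := by
    refine Prod.ext ?_ ?_
    · show (t • a.1) * star b.1 - star (-b.2) * (t • a.2) =
        t • (a.1 * star b.1 - star (-b.2) * a.2)
      rw [smul_mul_assoc, mul_smul_comm, smul_sub]
    · show (-b.2) * (t • a.1) + (t • a.2) * star (star b.1) =
        t • ((-b.2) * a.1 + a.2 * star (star b.1))
      rw [smul_mul_assoc, mul_smul_comm, smul_add]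
  m_smul t a b := by
    refine Prod.ext ?_ ?_
    · show a.1 * star (t • b.1) - star (-(t • b.2)) * a.2 =
        t • (a.1 * star b.1 - star (-b.2) * a.2)
      rw [Quaternion.star_smul, ← smul_neg, Quaternion.star_smul, smul_mul_assoc, mul_smul_comm,
        smul_sub]
    · show (-(t • b.2)) * a.1 + a.2 * star (star (t • b.1)) =
        t • ((-b.2) * a.1 + a.2 * star (star b.1))
      rw [star_star, star_star, ← smul_neg, smul_mul_assoc, mul_smul_comm, smul_add]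
  o := (1, 0)
  q_o := by
    show ‖(1 : ℍ[ℝ])‖ ^ 2 + ‖(0 : ℍ[ℝ])‖ ^ 2 = 1
    rw [norm_one, norm_zero]; norm_num
  m_o a := by
    refine Prod.ext ?_ ?_
    · show a.1 * star 1 - star (-0) * a.2 = a.1
      rw [star_one, mul_one, neg_zero, star_zero, zero_mul, sub_zero]
    · show (-0) * a.1 + a.2 * star (star 1) = a.2
      rw [star_one, star_one, mul_one, neg_zero, zero_mul, zero_add]
  o_m a := by
    have h1 : ∀ b : ℍ[ℝ] × ℍ[ℝ], octMul (1, 0) (octConj b) = octConj b := by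
      intro b
      refine Prod.ext ?_ ?_
      · show 1 * star b.1 - star (-b.2) * 0 = star b.1
        rw [one_mul, mul_zero, sub_zero]
      · show (-b.2) * 1 + 0 * star (star b.1) = -b.2
        rw [mul_one, zero_mul, add_zero]
    rw [h1, h1]
    refine Prod.ext (star_star a.1) (neg_neg a.2)

end Vale.Agent.P263.ST
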