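import Vale.Agent.P263.ST.Final
import Vale.Agent.P263.ST.CmpI

/-!
# P263: elements with non-zero Hurewicz image in odd stems have Hopf invariant one
-/

namespace Vale.Agent.P263.ST

open Vale.Agent.P263.TJ

/-- A based map `g : Sᵈ → Q₀S⁰`, `d > 0`, with `h_d(g) ≠ 0` has `d = 1`, `3` or `7` and Adams
filtration one, or `d = 2ˢ⁺¹ - 2`, `s > 0`. -/
theorem hopf_or_kervDim (d : ℕ) (g : BMap d) (hd : 0 < d) (hg : hur g ≠ 0) :
    ((d = 1 ∨ d = 3 ∨ d = 7) ∧ ¬ AF2 g) ∨ ∃ s : ℕ, 0 < s ∧ d + 2 = 2 ^ (s + 1) :=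
  hopf_or_dim (fun N => rkBox N) (fun N D => isoUpTo_rkBox _ N D) cmpOne d g hd hg

end Vale.Agent.P263.ST
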